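import Vale.Agent.P174.Defs

/-!
Elementary lemmas on lists of letters.
-/

namespace Vale.Agent.P174

open Monoid

universe u v

set_option linter.unusedSectionVars false

variable {G : Type u} [Group G] {α : Type v} {H : Type*} [Group H] (φ : G →* H) (h : α → H)

@[simp] lemma ev_nil : ev φ h ([] : List (Letter G α)) = 1 := rfl

@[simp] lemma ev_cons (a : Letter G α) (l : List (Letter G α)) :
    ev φ h (a :: l) = letterVal φ h a * ev φ h l := by simp [ev]

@[simp] lemma ev_append (l l' : List (Letter G α)) :
    ev φ h (l ++ l') = ev φ h l * ev φ h l' := by simp [ev]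

lemma lift_word (l : List (Letter G α)) :
    Coprod.lift φ (FreeGroup.lift h) (word l) = ev φ h l := by
  induction l with
  | nil => simp [word]
  | cons a l ih =>
    simp only [word, ev_cons, map_mul] at ih ⊢
    rw [ih]
    rcases a with g | ⟨j, b⟩
    · simp [letterVal]
    · cases b <;> simp [letterVal]

lemma exists_word (w : Coprod G (FreeGroup α)) : ∃ l : List (Letter G α), word l = w := by
  induction w using Coprod.induction_on with
  | inl g => exact ⟨[Sum.inl g], by simp [word, letterVal]⟩
  | inr x =>
    induction x using FreeGroup.induction_on with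
    | C1 => exact ⟨[], by simp [word]⟩
    | of j => exact ⟨[Sum.inr (j, true)], by simp [word, letterVal]⟩
    | inv_of j _ => exact ⟨[Sum.inr (j, false)], by simp [word, letterVal]⟩
    | mul x y hx hy =>
      obtain ⟨l, hl⟩ := hx
      obtain ⟨l', hl'⟩ := hy
      refine ⟨l ++ l', ?_⟩
      rw [map_mul, ← hl, ← hl']
      simp [word]
  | mul x y hx hy =>
    obtain ⟨l, hl⟩ := hx
    obtain ⟨l', hl'⟩ := hy
    refine ⟨l ++ l', ?_⟩
    rw [← hl, ← hl']
    simp [word]

/-- The formal inverse of a letter. -/
def invLetter : Letter G α → Letter G α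
  | Sum.inl g => Sum.inl g⁻¹
  | Sum.inr (j, b) => Sum.inr (j, !b)

/-- The formal inverse of a list of letters. -/
def invList (l : List (Letter G α)) : List (Letter G α) := (l.map invLetter).reverse

@[simp] lemma invList_nil : invList ([] : List (Letter G α)) = [] := rfl

@[simp] lemma invList_cons (a : Letter G α) (l : List (Letter G α)) :
    invList (a :: l) = invList l ++ [invLetter a] := by simp [invList]

lemma letterVal_invLetter (a : Letter G α) :
    letterVal φ h (invLetter a) = (letterVal φ h a)⁻¹ := by
  rcases a with g | ⟨j, b⟩
  · simp [invLetter, letterVal]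
  · cases b <;> simp [invLetter, letterVal]

@[simp] lemma ev_invList (l : List (Letter G α)) : ev φ h (invList l) = (ev φ h l)⁻¹ := by
  induction l with
  | nil => simp
  | cons a l ih => simp [ih, letterVal_invLetter]

@[simp] lemma numUnk_nil : numUnk ([] : List (Letter G α)) = 0 := rfl

lemma numUnk_cons (a : Letter G α) (l : List (Letter G α)) :
    numUnk (a :: l) = numUnk [a] + numUnk l := by
  unfold numUnk
  rw [← List.countP_append]
  rfl

@[simp] lemma numUnk_append (l l' : List (Letter G α)) :
    numUnk (l ++ l') = numUnk l + numUnk l' := by simp [numUnk]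

@[simp] lemma numUnk_inl (g : G) : numUnk ([Sum.inl g] : List (Letter G α)) = 0 := rfl

@[simp] lemma numUnk_inr (p : α × Bool) : numUnk ([Sum.inr p] : List (Letter G α)) = 1 := rfl

@[simp] lemma numUnk_invList (l : List (Letter G α)) : numUnk (invList l) = numUnk l := by
  induction l with
  | nil => rfl
  | cons a l ih =>
    rw [invList_cons, numUnk_append, ih, numUnk_cons a l, add_comm]
    rcases a with g | ⟨j, b⟩ <;> simp [invLetter]

variable [DecidableEq α]

@[simp] lemma occ_nil (j : α) : occ j ([] : List (Letter G α)) = 0 := rfl

@[simp] lemma occ_inl (j : α) (g : G) : occ j ([Sum.inl g] : List (Letter G α)) = 0 := rfl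

@[simp] lemma occ_inr (j : α) (k : α) (b : Bool) :
    occ j ([Sum.inr (k, b)] : List (Letter G α)) = if k = j then 1 else 0 := by
  by_cases hk : k = j <;> simp [occ, hk]

lemma occ_cons (j : α) (a : Letter G α) (l : List (Letter G α)) :
    occ j (a :: l) = occ j [a] + occ j l := by
  unfold occ
  rw [← List.countP_append]
  rfl

@[simp] lemma occ_inl_cons (j : α) (g : G) (l : List (Letter G α)) :
    occ j (Sum.inl g :: l) = occ j l := by rw [occ_cons, occ_inl, zero_add]

@[simp] lemma occ_inr_cons (j k : α) (b : Bool) (l : List (Letter G α)) :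
    occ j (Sum.inr (k, b) :: l) = (if k = j then 1 else 0) + occ j l := by
  rw [occ_cons, occ_inr]

@[simp] lemma occ_append (j : α) (l l' : List (Letter G α)) :
    occ j (l ++ l') = occ j l + occ j l' := by simp [occ]

@[simp] lemma occ_invList (j : α) (l : List (Letter G α)) : occ j (invList l) = occ j l := by
  induction l with
  | nil => rfl
  | cons a l ih =>
    rw [invList_cons, occ_append, ih, occ_cons j a l, add_comm]
    rcases a with g | ⟨k, b⟩ <;> simp [invLetter]

lemma occ_le_numUnk (j : α) (l : List (Letter G α)) : occ j l ≤ numUnk l := by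
  induction l with
  | nil => simp
  | cons a l ih =>
    rw [occ_cons, numUnk_cons]
    rcases a with g | ⟨k, b⟩
    · simpa using ih
    · simp; split_ifs <;> omega

lemma occ_add_le_numUnk {j k : α} (hjk : j ≠ k) (l : List (Letter G α)) :
    occ j l + occ k l ≤ numUnk l := by
  induction l with
  | nil => simp
  | cons a l ih =>
    rw [occ_cons, occ_cons k, numUnk_cons]
    rcases a with g | ⟨i, b⟩
    · simpa using ih
    · by_cases h1 : i = j
      · subst h1; simp [hjk]; omega
      · simp [h1]; split_ifs <;> omega

/-- Values agree when the assignments agree on the unknowns that occur. -/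
lemma ev_congr {h h' : α → H} (l : List (Letter G α))
    (hh : ∀ j, 0 < occ j l → h j = h' j) : ev φ h l = ev φ h' l := by
  induction l with
  | nil => rfl
  | cons a l ih =>
    rw [ev_cons, ev_cons, ih (fun j hj => hh j (by rw [occ_cons]; omega))]
    rcases a with g | ⟨j, b⟩
    · rfl
    · have := hh j (by rw [occ_cons]; simp)
      cases b <;> simp [letterVal, this]

/-- The row of exponent sums of a list. -/
def rowL (l : List (Letter G α)) : α → ℚ := row (word l)

lemma rowL_append (l l' : List (Letter G α)) : rowL (l ++ l') = rowL l + rowL l' := by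
  funext j
  simp [rowL, row, word]

@[simp] lemma rowL_nil : rowL ([] : List (Letter G α)) = 0 := by
  funext j
  simp [rowL, row, word]

lemma rowL_cons (a : Letter G α) (l : List (Letter G α)) :
    rowL (a :: l) = rowL [a] + rowL l := rowL_append [a] l

@[simp] lemma rowL_inl (g : G) : rowL ([Sum.inl g] : List (Letter G α)) = 0 := by
  funext j
  simp [rowL, row, word, expSum, letterVal]

lemma rowL_inr (k : α) (b : Bool) :
    rowL ([Sum.inr (k, b)] : List (Letter G α)) =
      fun j => if k = j then (if b then 1 else -1) else 0 := by
  funext j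
  by_cases hk : k = j <;> cases b <;> simp [rowL, row, word, expSum, letterVal, hk]

lemma rowL_invList (l : List (Letter G α)) : rowL (invList l) = - rowL l := by
  induction l with
  | nil => simp
  | cons a l ih =>
    rw [invList_cons, rowL_append, rowL_cons a l, ih]
    rcases a with g | ⟨k, b⟩
    · simp [invLetter]
    · funext j
      by_cases hk : k = j <;> cases b <;> simp [invLetter, rowL_inr, hk]

lemma rowL_eq_zero_of_occ {j : α} {l : List (Letter G α)} (hl : occ j l = 0) :
    rowL l j = 0 := by
  induction l with
  | nil => simp
  | cons a l ih =>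
    rw [occ_cons] at hl
    rw [rowL_cons, Pi.add_apply, ih (by omega)]
    rcases a with g | ⟨k, b⟩
    · simp
    · have hk : k ≠ j := by
        intro hk
        simp [hk] at hl
      simp [rowL_inr, hk]

/-- Split a list at the first occurrence of an unknown. -/
lemma exists_split {j : α} {l : List (Letter G α)} (hl : 0 < occ j l) :
    ∃ A b B, l = A ++ Sum.inr (j, b) :: B ∧ occ j A = 0 ∧ occ j l = occ j B + 1 := by
  induction l with
  | nil => simp at hl
  | cons a l ih =>
    by_cases ha : occ j [a] = 0
    · obtain ⟨A, b, B, rfl, hA, hB⟩ := ih (by rw [occ_cons] at hl; omega)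
      refine ⟨a :: A, b, B, rfl, ?_, ?_⟩
      · rw [occ_cons]; omega
      · rw [occ_cons]; omega
    · rcases a with g | ⟨k, b⟩
      · simp at ha
      · have hk : k = j := by
          by_contra hk
          simp [hk] at ha
        subst hk
        exact ⟨[], b, l, rfl, rfl, by rw [occ_cons]; simp; omega⟩

end Vale.Agent.P174
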