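import Mathlib

/-!
Basic vocabulary for systems of equations over a group, written with words.
-/

namespace Vale.Agent.P174

open Monoid

universe u v

/-- A letter: a coefficient `inl g`, or `inr (x, true)` for `x` and `inr (x, false)` for the
inverse of `x`. -/
abbrev Letter (G : Type u) (α : Type v) := G ⊕ (α × Bool)

variable {G : Type u} [Group G] {α : Type v}

/-- Value of a letter. -/
def letterVal {H : Type*} [Group H] (φ : G →* H) (h : α → H) : Letter G α → H
  | Sum.inl g => φ g
  | Sum.inr (j, true) => h j
  | Sum.inr (j, false) => (h j)⁻¹

/-- Value of a list of letters: the product of the values of the letters. -/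
def ev {H : Type*} [Group H] (φ : G →* H) (h : α → H) (l : List (Letter G α)) : H :=
  (l.map (letterVal φ h)).prod

/-- The element of `G * F(α)` written by a list of letters. -/
def word (l : List (Letter G α)) : Coprod G (FreeGroup α) :=
  ev (H := Coprod G (FreeGroup α)) Coprod.inl (fun j => Coprod.inr (FreeGroup.of j)) l

/-- The exponent sum of the unknown `j`. -/
def expSum [DecidableEq α] (j : α) : Coprod G (FreeGroup α) →* Multiplicative ℤ :=
  Coprod.lift 1 (FreeGroup.lift fun k => Multiplicative.ofAdd (if k = j then (1 : ℤ) else 0))

/-- The row of exponent sums of an equation, over the rationals. -/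
def row [DecidableEq α] (w : Coprod G (FreeGroup α)) : α → ℚ :=
  fun j => ((Multiplicative.toAdd (expSum j w) : ℤ) : ℚ)

/-- The exponent-sum matrix has linearly independent rows over the rationals. -/
def Nonsingular [DecidableEq α] {ι : Type*} (w : ι → Coprod G (FreeGroup α)) : Prop :=
  LinearIndependent ℚ (fun i => row (w i))

/-- There is an overgroup in which all the equations have a common solution. -/
def Solvable {ι : Type*} (w : ι → Coprod G (FreeGroup α)) : Prop :=
  ∃ (H : Type u) (_ : Group H) (φ : G →* H) (h : α → H),
    Function.Injective φ ∧ ∀ i, Coprod.lift φ (FreeGroup.lift h) (w i) = 1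

/-- Number of occurrences of the unknown `j` (with either sign) in a list. -/
def occ [DecidableEq α] (j : α) (l : List (Letter G α)) : ℕ :=
  l.countP (fun a => match a with
    | Sum.inl _ => false
    | Sum.inr (k, _) => decide (k = j))

/-- Number of letters of a list that are unknowns or inverses of unknowns. -/
def numUnk (l : List (Letter G α)) : ℕ :=
  l.countP (fun a => a.isRight)

/-- Every equation is `g x`, `x y` or `x y z`, and each unknown occurs at most three times. -/
def IsNormalForm [DecidableEq α] {ι : Type*} [Fintype ι] (l : ι → List (Letter G α)) : Prop :=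
  (∀ i, (∃ g x, l i = [Sum.inl g, Sum.inr (x, true)]) ∨
    (∃ x y, l i = [Sum.inr (x, true), Sum.inr (y, true)]) ∨
    (∃ x y z, l i = [Sum.inr (x, true), Sum.inr (y, true), Sum.inr (z, true)])) ∧
  ∀ x, ∑ i, occ x (l i) ≤ 3

/-- Every nonsingular finite system over `G` is solvable. -/
def Conjecture (G : Type u) [Group G] : Prop :=
  ∀ (m n : ℕ) (w : Fin m → Coprod G (FreeGroup (Fin n))), Nonsingular w → Solvable w

/-- Every nonsingular square system in normal form over `G` is solvable. -/
def NormalFormConjecture (G : Type u) [Group G] : Prop :=
  ∀ (n : ℕ) (l : Fin n → List (Letter G (Fin n))), IsNormalForm l →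
    Nonsingular (fun i => word (l i)) → Solvable (fun i => word (l i))

/-- No nonsingular square system in normal form over a nontrivial group kills that whole
group: some solution in some group sends the coefficient group to a nontrivial subgroup. -/
def NoKilling : Prop :=
  ∀ (G : Type u) [Group G], Nontrivial G → ∀ (n : ℕ) (l : Fin n → List (Letter G (Fin n))),
    IsNormalForm l → Nonsingular (fun i => word (l i)) →
      ∃ (H : Type u) (_ : Group H) (φ : G →* H) (h : Fin n → H),
        φ ≠ 1 ∧ ∀ i, Coprod.lift φ (FreeGroup.lift h) (word (l i)) = 1

end Vale.Agent.P174
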