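import Vale.Agent.P174.Basic

/-!
Systems in which every unknown occurs at most twice, or every equation has at most two
unknown letters.
-/

namespace Vale.Agent.P174

open Monoid Function

set_option linter.unusedSectionVars false

universe u v

variable {G : Type u} [Group G] {α : Type v} [DecidableEq α]

/-- Replace one unknown by a list, in one letter. -/
def substLetter (j : α) (R : List (Letter G α)) : Letter G α → List (Letter G α)
  | Sum.inl g => [Sum.inl g]
  | Sum.inr (k, b) => if k = j then (if b then R else invList R) else [Sum.inr (k, b)]

/-- Replace one unknown by a list. -/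
def subst (j : α) (R : List (Letter G α)) (l : List (Letter G α)) : List (Letter G α) :=
  l.flatMap (substLetter j R)

lemma subst_cons (j : α) (R : List (Letter G α)) (a : Letter G α) (l : List (Letter G α)) :
    subst j R (a :: l) = substLetter j R a ++ subst j R l := by simp [subst]

lemma ev_subst {H : Type*} [Group H] (φ : G →* H) (h : α → H) (j : α) (R l : List (Letter G α)) :
    ev φ h (subst j R l) = ev φ (update h j (ev φ h R)) l := by
  induction l with
  | nil => rfl
  | cons a l ih =>
    rw [subst_cons, ev_append, ih, ev_cons]
    congr 1
    rcases a with g | ⟨k, b⟩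
    · simp [substLetter, letterVal]
    · by_cases hk : k = j
      · subst hk; cases b <;> simp [substLetter, letterVal]
      · cases b <;> simp [substLetter, letterVal, hk]

lemma rowL_subst (j : α) (R l : List (Letter G α)) :
    rowL (subst j R l) = rowL l + rowL l j • (rowL R - Pi.single j 1) := by
  induction l with
  | nil => simp [subst]
  | cons a l ih =>
    rw [subst_cons, rowL_append, ih, rowL_cons a l]
    rcases a with g | ⟨k, b⟩
    · simp [substLetter]
    · funext c
      by_cases hk : k = j
      · subst hk
        by_cases hc : k = c
        · subst hc
          cases b <;> simp [substLetter, rowL_inr, rowL_invList] <;> ring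
        · cases b <;>
            simp [substLetter, rowL_inr, rowL_invList, hc, Ne.symm hc] <;> ring
      · simp [substLetter, hk, rowL_inr]
        ring

lemma occ_subst (j : α) (R l : List (Letter G α)) (c : α) :
    occ c (subst j R l) + (if c = j then occ j l else 0) = occ c l + occ j l * occ c R := by
  induction l with
  | nil => simp [subst]
  | cons a l ih =>
    rw [subst_cons, occ_append, occ_cons c a l, occ_cons j a l]
    rcases a with g | ⟨k, b⟩
    · simpa [substLetter] using ih
    · by_cases hk : k = j
      · subst hk
        by_cases hc : c = k
        · subst hc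
          cases b <;> simp [substLetter, add_mul] at ih ⊢ <;> omega
        · cases b <;> simp [substLetter, add_mul, hc, Ne.symm hc] at ih ⊢ <;> omega
      · by_cases hc : c = j
        · subst hc
          simp [substLetter, hk] at ih ⊢
          omega
        · simp [substLetter, hk, hc] at ih ⊢
          omega

lemma numUnk_subst (j : α) (R l : List (Letter G α)) (hR : numUnk R ≤ 1) :
    numUnk (subst j R l) ≤ numUnk l := by
  induction l with
  | nil => simp [subst]
  | cons a l ih =>
    rw [subst_cons, numUnk_append, numUnk_cons a l]
    rcases a with g | ⟨k, b⟩
    · simpa [substLetter] using ih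
    · by_cases hk : k = j
      · cases b <;> simp [substLetter, hk] <;> omega
      · simp [substLetter, hk]; omega

/-- Row operations keep independence. -/
lemma linearIndependent_elim {V : Type*} [AddCommGroup V] [Module ℚ V] {m : ℕ}
    {r : Fin (m + 1) → V} (hr : LinearIndependent ℚ r) (i : Fin (m + 1)) (c : Fin m → ℚ) :
    LinearIndependent ℚ (fun k => r (i.succAbove k) - c k • r i) := by
  rw [Fintype.linearIndependent_iff] at hr ⊢
  intro g hg k
  have key := hr (Fin.insertNth i (-∑ k, g k * c k) g) ?_ (i.succAbove k)
  · simpa using key
  · rw [Fin.sum_univ_succAbove _ i]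
    simp only [Fin.insertNth_apply_same, Fin.insertNth_apply_succAbove]
    rw [← hg, neg_smul, Finset.sum_smul]
    simp only [smul_sub, Finset.sum_sub_distrib, mul_smul]
    abel

/-- A single equation in which one unknown occurs twice with nonzero exponent sum, the other
unknowns being set equal to one, is solved by a square root. -/
lemma solve_one {H : Type*} [Group H] (φ : G →* H) (hroot : ∀ g : G, ∃ r : H, r * r = φ g)
    (j : α) (l : List (Letter G α)) (h2 : occ j l = 2) (he : rowL l j ≠ 0) :
    ∃ t : H, ev φ (update 1 j t) l = 1 := by
  obtain ⟨A, b, B, rfl, hA, hB⟩ := exists_split (j := j) (l := l) (by omega)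
  have hB1 : occ j B = 1 := by omega
  obtain ⟨C, b', D, rfl, hC, hD⟩ := exists_split (j := j) (l := B) (by omega)
  have hD0 : occ j D = 0 := by omega
  have hbb : b = b' := by
    by_contra hne
    apply he
    rw [rowL_append, rowL_cons (Sum.inr (j, b)), rowL_append, rowL_cons (Sum.inr (j, b'))]
    simp only [Pi.add_apply, rowL_eq_zero_of_occ hA, rowL_eq_zero_of_occ hC,
      rowL_eq_zero_of_occ hD0, rowL_inr]
    cases b <;> cases b' <;> simp at hne ⊢
  subst hbb
  let one' : α → G := 1
  let a : G := ev (MonoidHom.id G) one' A
  let c : G := ev (MonoidHom.id G) one' C
  let d : G := ev (MonoidHom.id G) one' D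
  have hconst : ∀ (L : List (Letter G α)) (t : H), occ j L = 0 →
      ev φ (update 1 j t) L = φ (ev (MonoidHom.id G) one' L) := by
    intro L t hL
    rw [ev_congr φ (h := update 1 j t) (h' := (1 : α → H)) L]
    · induction L with
      | nil => simp
      | cons x L ih =>
        rw [occ_cons] at hL
        rw [ev_cons, ev_cons, map_mul, ih (by omega)]
        congr 1
        rcases x with g | ⟨k, s⟩
        · rfl
        · cases s <;> simp [letterVal, one']
    · intro k hk
      have hkj : k ≠ j := by
        rintro rfl
        omega
      simp [hkj]
  obtain ⟨r, hr⟩ := hroot (c * a⁻¹ * d⁻¹)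
  let y : H := (φ c)⁻¹ * r
  refine ⟨if b then y else y⁻¹, ?_⟩
  have hy : ∀ t : H, t = (if b then y else y⁻¹) →
      letterVal φ (update 1 j t) (Sum.inr (j, b)) = y := by
    intro t ht
    cases b <;> simp [letterVal, ht]
  rw [ev_append, ev_cons, ev_append, ev_cons, hy _ rfl, hconst A _ hA, hconst C _ hC,
    hconst D _ hD0]
  show φ a * (y * (φ c * (y * φ d))) = 1
  calc φ a * (y * (φ c * (y * φ d)))
      = φ a * (φ c)⁻¹ * (r * r) * φ d := by simp only [y]; group
    _ = 1 := by rw [hr]; simp only [map_mul, map_inv]; group

/-- The main statement, relative to an embedding having all square roots. -/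
theorem exists_solution {H : Type*} [Group H] (φ : G →* H)
    (hroot : ∀ g : G, ∃ r : H, r * r = φ g) :
    ∀ (m : ℕ) (l : Fin m → List (Letter G α)),
      LinearIndependent ℚ (fun i => rowL (l i)) →
      ((∀ j, ∑ i, occ j (l i) ≤ 2) ∨ (∀ i, numUnk (l i) ≤ 2)) →
      ∃ h : α → H, ∀ i, ev φ h (l i) = 1 := by
  intro m
  induction m with
  | zero => exact fun l _ _ => ⟨1, fun i => i.elim0⟩
  | succ m ih =>
    intro l hli hok
    by_cases hone : ∃ i j, occ j (l i) = 1
    · obtain ⟨i, j, hij⟩ := hone
      obtain ⟨A, b, B, hl, hA, hB⟩ := exists_split (j := j) (l := l i) (by omega)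
      have hB0 : occ j B = 0 := by omega
      let R : List (Letter G α) := if b then invList A ++ invList B else B ++ A
      have hRocc : ∀ c, occ c R = occ c A + occ c B := by
        intro c
        cases b <;> simp [R, add_comm]
      have hRrow : rowL R - Pi.single j 1 = (if b then (-1 : ℚ) else 1) • rowL (l i) := by
        rw [hl, rowL_append, rowL_cons (Sum.inr (j, b))]
        funext c
        by_cases hc : j = c
        · subst hc
          cases b <;> simp [R, rowL_append, rowL_invList, rowL_inr] <;> ring
        · cases b <;>
            simp [R, rowL_append, rowL_invList, rowL_inr, hc, Ne.symm hc] <;> ring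
      let l' : Fin m → List (Letter G α) := fun k => subst j R (l (i.succAbove k))
      have hli' : LinearIndependent ℚ (fun k => rowL (l' k)) := by
        have := linearIndependent_elim hli i
          (fun k => (if b then (1 : ℚ) else -1) * rowL (l (i.succAbove k)) j)
        refine (funext fun k => ?_ : (fun k => rowL (l' k)) = _) ▸ this
        simp only [l', rowL_subst, hRrow]
        cases b <;> simp [sub_eq_add_neg]
      have hok' : (∀ c, ∑ k, occ c (l' k) ≤ 2) ∨ (∀ k, numUnk (l' k) ≤ 2) := by
        rcases hok with hocc | hlen
        · left
          intro c
          have h1 := hocc j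
          have h2 := hocc c
          rw [Fin.sum_univ_succAbove _ i] at h1 h2
          have hsum : ∀ k, occ c (l' k) + (if c = j then occ j (l (i.succAbove k)) else 0) =
              occ c (l (i.succAbove k)) + occ j (l (i.succAbove k)) * occ c R :=
            fun k => occ_subst j R (l (i.succAbove k)) c
          have hS := Finset.sum_congr rfl (fun k (_ : k ∈ Finset.univ) => hsum k)
          rw [Finset.sum_add_distrib, Finset.sum_add_distrib, ← Finset.sum_mul] at hS
          by_cases hc : c = j
          · subst hc
            have : occ c R = 0 := by rw [hRocc]; omega
            simp only [this, mul_zero, add_zero, if_true] at hS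
            omega
          · have hci : occ c (l i) = occ c R := by
              rw [hl, hRocc, occ_append, occ_cons c (Sum.inr (j, b))]
              simp [Ne.symm hc]
            have : (∑ k, occ j (l (i.succAbove k))) * occ c R ≤ 1 * occ c R :=
              Nat.mul_le_mul_right _ (by omega)
            simp [hc] at hS
            omega
        · right
          intro k
          refine le_trans (numUnk_subst j R _ ?_) (hlen _)
          have h1 := hlen i
          rw [hl, numUnk_append, numUnk_cons (Sum.inr (j, b))] at h1
          cases b <;> simp [R] at h1 ⊢ <;> omega
      obtain ⟨h, hh⟩ := ih l' hli' hok'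
      refine ⟨update h j (ev φ h R), fun k => ?_⟩
      rcases Fin.eq_self_or_eq_succAbove i k with rfl | ⟨k', rfl⟩
      · have hcong : ∀ L : List (Letter G α), occ j L = 0 →
            ev φ (update h j (ev φ h R)) L = ev φ h L := by
          intro L hL
          refine ev_congr φ L (fun c hc => ?_)
          have : c ≠ j := by
            rintro rfl
            omega
          simp [this]
        rw [hl, ev_append, ev_cons, hcong A hA, hcong B hB0]
        cases b <;> simp [letterVal, R] <;> group
      · rw [← ev_subst]
        exact hh k'
    · push Not at hone
      have hchoose : ∀ i, ∃ j, rowL (l i) j ≠ 0 := by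
        intro i
        by_contra hz
        push Not at hz
        exact hli.ne_zero i (funext hz)
      choose J hJ using hchoose
      have h2 : ∀ i, occ (J i) (l i) = 2 := by
        intro i
        have h0 : occ (J i) (l i) ≠ 0 := fun h0 => hJ i (rowL_eq_zero_of_occ h0)
        have h1 : occ (J i) (l i) ≠ 1 := hone i (J i)
        rcases hok with hocc | hlen
        · have := le_trans (Finset.single_le_sum (f := fun k => occ (J i) (l k))
            (fun k _ => Nat.zero_le _) (Finset.mem_univ i)) (hocc (J i))
          omega
        · have := le_trans (occ_le_numUnk (J i) (l i)) (hlen i)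
          omega
      have hother : ∀ i k, k ≠ i → occ (J i) (l k) = 0 := by
        intro i k hki
        rcases hok with hocc | hlen
        · have h3 : occ (J i) (l i) + occ (J i) (l k) ≤ ∑ t, occ (J i) (l t) := by
            rw [← Finset.sum_pair (f := fun t => occ (J i) (l t)) (Ne.symm hki)]
            exact Finset.sum_le_sum_of_subset (Finset.subset_univ _)
          have := hocc (J i)
          have := h2 i
          omega
        · by_contra h0
          have hk2 : 2 ≤ occ (J i) (l k) := by
            have := hone k (J i)
            omega
          have hsupp : ∀ t, J i ≠ t → occ t (l i) = 0 ∧ occ t (l k) = 0 := by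
            intro t ht
            have := occ_add_le_numUnk ht (l i)
            have := occ_add_le_numUnk ht (l k)
            have := hlen i
            have := hlen k
            have := h2 i
            omega
          have hpair := (linearIndependent_iff'.mp hli) {i, k}
            (fun t => if t = i then rowL (l k) (J i) else -rowL (l i) (J i)) ?_ k (by simp)
          · simp [hki] at hpair
            exact hJ i hpair
          · rw [Finset.sum_pair (Ne.symm hki)]
            funext t
            by_cases ht : J i = t
            · subst ht
              simp [hki]
              ring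
            · simp [hki, rowL_eq_zero_of_occ (hsupp t ht).1, rowL_eq_zero_of_occ (hsupp t ht).2]
      choose t ht using fun i => solve_one φ hroot (J i) (l i) (h2 i) (hJ i)
      classical
      refine ⟨fun c => if hc : ∃ i, J i = c then t hc.choose else 1, fun i => ?_⟩
      refine (ev_congr φ (l i) ?_).trans (ht i)
      intro c hc
      by_cases hex : ∃ k, J k = c
      · have hk : hex.choose = i := by
          by_contra hne
          have := hother hex.choose i (Ne.symm hne)
          rw [hex.choose_spec] at this
          omega
        rw [dif_pos hex, hk]
        have hc' : J i = c := hk ▸ hex.choose_spec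
        simp [← hc']
      · have : c ≠ J i := fun h => hex ⟨i, h.symm⟩
        simp [hex, this]

/-- Left translation on two copies of `G`. -/
def double : G →* Equiv.Perm (G × Bool) where
  toFun g := (Equiv.mulLeft g).prodCongr (Equiv.refl Bool)
  map_one' := by ext x <;> simp
  map_mul' g g' := by ext x <;> simp [mul_assoc]

lemma double_injective : Injective (double (G := G)) := by
  intro g g' hgg
  have := congrArg (fun e => (e (1, true)).1) hgg
  simpa [double] using this

lemma double_root (g : G) : ∃ r : Equiv.Perm (G × Bool), r * r = double g := by
  refine ⟨⟨fun p => if p.2 then (g * p.1, false) else (p.1, true),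
    fun p => if p.2 then (p.1, false) else (g⁻¹ * p.1, true), ?_, ?_⟩, ?_⟩
  · rintro ⟨x, _ | _⟩ <;> simp
  · rintro ⟨x, _ | _⟩ <;> simp
  · ext ⟨x, _ | _⟩ <;> simp [double]

end Vale.Agent.P174
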