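import Mathlib

/-!
Every group embeds in a permutation group in which a prescribed nontrivial element normally
generates everything.
-/

namespace Vale.Agent.P174

open Cardinal

universe u

variable {G : Type u} [Group G]

/-- The permuted set. -/
abbrev PX (G : Type u) : Type u := (G × ℤ) × (ℕ → G × ℤ)

/-- A set of full cardinality. -/
def Big (A : Set (PX G)) : Prop := Cardinal.mk A = Cardinal.mk (PX G)

omit [Group G] in
lemma Big.mono {A B : Set (PX G)} (hA : Big A) (h : A ⊆ B) : Big B :=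
  le_antisymm (mk_set_le B) (hA ▸ mk_le_mk_of_subset h)

/-- A layer. -/
def layer (z : G × ℤ) : Set (PX G) := {x | x.1 = z}

omit [Group G] in
lemma big_layer (z : G × ℤ) : Big (layer z) := by
  refine Cardinal.eq.mpr ⟨?_⟩
  exact
    { toFun := fun x => ((x.1.2 0), fun k => x.1.2 (k + 1))
      invFun := fun p => ⟨(z, fun k => match k with | 0 => p.1 | k + 1 => p.2 k), rfl⟩
      left_inv := by
        rintro ⟨⟨a, f⟩, h⟩
        apply Subtype.ext
        refine Prod.ext h.symm (funext fun k => ?_)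
        cases k <;> rfl
      right_inv := fun p => rfl }

omit [Group G] in
lemma disjoint_layer {y z : G × ℤ} (h : y ≠ z) : layer y ⊆ (layer z)ᶜ :=
  fun _ hy hz => h (hy.symm.trans hz)

lemma infinite_PX : ℵ₀ ≤ Cardinal.mk (PX G) := Cardinal.aleph0_le_mk _

/-- Left translation of the first coordinate. -/
def translate : G →* Equiv.Perm (PX G) where
  toFun g := ((Equiv.mulLeft g).prodCongr (Equiv.refl ℤ)).prodCongr (Equiv.refl _)
  map_one' := by ext x <;> simp
  map_mul' g g' := by ext x <;> simp [mul_assoc]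

@[simp] lemma translate_apply (g a : G) (k : ℤ) (f : ℕ → G × ℤ) :
    translate g ((a, k), f) = ((g * a, k), f) := rfl

@[simp] lemma translate_symm_apply (g a : G) (k : ℤ) (f : ℕ → G × ℤ) :
    (translate g).symm ((a, k), f) = ((g⁻¹ * a, k), f) := rfl

lemma translate_injective : Function.Injective (translate (G := G)) := by
  intro g g' h
  have := congrArg (fun e => (e ((1, 0), fun _ => (1, 0))).1.1) h
  simpa using this

/-- Shift of each fibre by an integer. -/
def shift (d : G → ℤ) : Equiv.Perm (PX G) where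
  toFun x := ((x.1.1, x.1.2 + d x.1.1), x.2)
  invFun x := ((x.1.1, x.1.2 - d x.1.1), x.2)
  left_inv x := by simp
  right_inv x := by simp

variable {N : Subgroup (Equiv.Perm (PX G))}

open Classical in
/-- Permutations supported on one layer lie in a normal subgroup containing a nontrivial
translation. -/
lemma mem_of_layer (hN : N.Normal) {g : G} (hg : g ≠ 1) (hgN : translate g ∈ N)
    (π : Equiv.Perm (PX G)) (hπ : ∀ x, x ∉ layer (g, (0 : ℤ)) → π x = x) : π ∈ N := by
  have hstay : ∀ x ∈ layer (g, (0 : ℤ)), π x ∈ layer (g, (0 : ℤ)) := by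
    intro x hx
    by_contra hne
    have := π.injective (hπ _ hne)
    exact hne (this.symm ▸ hx)
  have hπ' : ∀ x, x ∉ layer (g, (0 : ℤ)) → π.symm x = x := by
    intro x hx
    rw [Equiv.symm_apply_eq, hπ x hx]
  have hstay' : ∀ x ∈ layer (g, (0 : ℤ)), π.symm x ∈ layer (g, (0 : ℤ)) := by
    intro x hx
    by_contra hne
    have h1 := hπ _ hne
    rw [Equiv.apply_symm_apply] at h1
    exact hne (h1 ▸ hx)
  let p : Equiv.Perm (ℕ → G × ℤ) :=
    { toFun := fun f => (π ((g, 0), f)).2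
      invFun := fun f => (π.symm ((g, 0), f)).2
      left_inv := fun f => by
        show (π.symm ((g, 0), (π ((g, 0), f)).2)).2 = f
        have : π ((g, 0), f) = ((g, 0), (π ((g, 0), f)).2) :=
          Prod.ext (hstay ((g, 0), f) rfl) rfl
        rw [← this, Equiv.symm_apply_apply]
      right_inv := fun f => by
        show (π ((g, 0), (π.symm ((g, 0), f)).2)).2 = f
        have : π.symm ((g, 0), f) = ((g, 0), (π.symm ((g, 0), f)).2) :=
          Prod.ext (hstay' ((g, 0), f) rfl) rfl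
        rw [← this, Equiv.apply_symm_apply] }
  let F : Equiv.Perm (PX G) :=
    { toFun := fun x => if x.1.1 = g ∧ 0 ≤ x.1.2 then (x.1, p x.2) else x
      invFun := fun x => if x.1.1 = g ∧ 0 ≤ x.1.2 then (x.1, p.symm x.2) else x
      left_inv := fun x => by
        by_cases hx : x.1.1 = g ∧ 0 ≤ x.1.2 <;> simp [hx]
      right_inv := fun x => by
        by_cases hx : x.1.1 = g ∧ 0 ≤ x.1.2 <;> simp [hx] }
  let c : G → ℤ := fun a => if a = 1 then 1 else 0
  let d : G → ℤ := fun a => c (g⁻¹ * a) - c a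
  have hs : shift d = translate g * (shift c * (translate g)⁻¹ * (shift c)⁻¹) := by
    rw [← mul_assoc, ← mul_assoc]
    refine eq_mul_inv_of_mul_eq ?_
    apply Equiv.ext
    rintro ⟨⟨a, k⟩, f⟩
    rw [← map_inv]
    simp only [Equiv.Perm.mul_apply]
    show shift d (shift c ((a, k), f)) = translate g (shift c (translate g⁻¹ ((a, k), f)))
    simp [shift, d]
  have hsN : shift d ∈ N := hs ▸ N.mul_mem hgN (hN.conj_mem _ (N.inv_mem hgN) _)
  have hcomm : F * shift d * F⁻¹ * (shift d)⁻¹ ∈ N :=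
    N.mul_mem (hN.conj_mem _ hsN F) (N.inv_mem hsN)
  have hdg : d g = 1 := by simp [d, c, hg]
  suffices π = F * shift d * F⁻¹ * (shift d)⁻¹ by rw [this]; exact hcomm
  rw [eq_mul_inv_iff_mul_eq, eq_mul_inv_iff_mul_eq]
  apply Equiv.ext
  rintro ⟨⟨a, k⟩, f⟩
  simp only [Equiv.Perm.mul_apply]
  by_cases ha : a = g
  · subst ha
    rcases lt_trichotomy k (-1) with hk | hk | hk
    · have h1 : ¬ (0 : ℤ) ≤ k := by omega
      have h2 : ¬ (0 : ℤ) ≤ k + 1 := by omega
      simp [F, shift, h1, h2, hdg]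
      exact hπ _ (by simp [layer]; omega)
    · subst hk
      simp [F, shift, hdg]
      exact Prod.ext (hstay ((a, 0), f) rfl) rfl
    · have h1 : (0 : ℤ) ≤ k := by omega
      have h2 : (0 : ℤ) ≤ k + 1 := by omega
      simp [F, shift, h1, h2, hdg]
      exact hπ _ (by simp [layer]; omega)
  · simp [F, shift, ha]
    exact hπ _ (by simp [layer, ha])

omit [Group G] in
/-- Extend a bijection between two sets with full complements to a permutation. -/
lemma exists_perm (A : Set (PX G)) (q : PX G → PX G) (hq : Set.InjOn q A) (hA : Big Aᶜ)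
    (hA' : Big (q '' A)ᶜ) : ∃ τ : Equiv.Perm (PX G), ∀ x ∈ A, τ x = q x := by
  classical
  obtain ⟨e⟩ := Cardinal.eq.mp (hA.trans hA'.symm)
  refine ⟨Equiv.subtypeCongr (Equiv.Set.imageOfInjOn q A hq) e, fun x hx => ?_⟩
  simp [Equiv.subtypeCongr, Equiv.sumCompl_symm_apply_of_pos hx]
  rfl

/-- Permutations fixing a full set with full complement lie in the subgroup. -/
lemma mem_of_fix (hN : N.Normal) {g : G} (hg : g ≠ 1) (hgN : translate g ∈ N)
    (π : Equiv.Perm (PX G)) (A : Set (PX G)) (hA : Big A) (hA' : Big Aᶜ)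
    (hπ : ∀ x ∈ A, π x = x) : π ∈ N := by
  classical
  have hL : Big (layer (g, (0 : ℤ)))ᶜ :=
    (big_layer (g, (1 : ℤ))).mono (disjoint_layer (by simp))
  obtain ⟨e1⟩ := Cardinal.eq.mp (hA'.trans (big_layer (g, (0 : ℤ))).symm)
  obtain ⟨e2⟩ := Cardinal.eq.mp ((show Big Aᶜᶜ by rwa [compl_compl]).trans hL.symm)
  let e : Equiv.Perm (PX G) := Equiv.subtypeCongr e1 e2
  have he : ∀ x ∈ Aᶜ, e x ∈ layer (g, (0 : ℤ)) := by
    intro x hx
    simp [e, Equiv.subtypeCongr, Equiv.sumCompl_symm_apply_of_pos hx]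
  have hmem := mem_of_layer hN hg hgN (e * π * e⁻¹) (fun x hx => by
    have : π (e.symm x) = e.symm x := hπ _ (by
      by_contra hn
      exact hx (by simpa using he _ hn))
    simp [Equiv.Perm.mul_apply, Equiv.Perm.inv_def, this])
  have := hN.conj_mem _ hmem e⁻¹
  simpa [mul_assoc] using this

/-- A normal subgroup containing a nontrivial translation is everything. -/
theorem eq_top_of_translate_mem (hN : N.Normal) {g : G} (hg : g ≠ 1) (hgN : translate g ∈ N) :
    N = ⊤ := by
  classical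
  rw [eq_top_iff]
  intro π _
  let P : ℤ → Set (PX G) := fun i => layer ((1 : G), i)
  obtain ⟨B, hB, hC⟩ : ∃ B : Set (PX G), Big B ∧ Big (B ∪ π '' B)ᶜ := by
    by_cases hcase : Big (P 0 ∩ π ⁻¹' P 1)
    · refine ⟨_, hcase, (big_layer ((1 : G), (2 : ℤ))).mono ?_⟩
      rintro x hx (⟨hx0, _⟩ | ⟨y, ⟨_, hy⟩, rfl⟩)
      · exact disjoint_layer (by simp) hx hx0
      · exact disjoint_layer (by simp) hx hy
    · refine ⟨P 0 \ π ⁻¹' P 1, ?_, (big_layer ((1 : G), (1 : ℤ))).mono ?_⟩
      · by_contra hnb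
        have h1 : Cardinal.mk (P 0 ∩ π ⁻¹' P 1 : Set (PX G)) < Cardinal.mk (PX G) :=
          lt_of_le_of_ne (mk_set_le _) hcase
        have h2 : Cardinal.mk (P 0 \ π ⁻¹' P 1 : Set (PX G)) < Cardinal.mk (PX G) :=
          lt_of_le_of_ne (mk_set_le _) hnb
        have h3 := lt_of_le_of_lt (mk_union_le (P 0 ∩ π ⁻¹' P 1) (P 0 \ π ⁻¹' P 1))
          (Cardinal.add_lt_of_lt infinite_PX h1 h2)
        rw [Set.inter_union_sdiff] at h3
        exact h3.ne (big_layer _)
      · rintro x hx (⟨hx0, _⟩ | ⟨y, ⟨_, hy⟩, rfl⟩)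
        · exact disjoint_layer (by simp) hx hx0
        · exact hy hx
  let C := (B ∪ π '' B)ᶜ
  obtain ⟨e⟩ := Cardinal.eq.mp hC
  let C1 : Set (PX G) := (fun x => (e.symm x : PX G)) '' layer ((1 : G), (0 : ℤ))
  let C2 : Set (PX G) := (fun x => (e.symm x : PX G)) '' layer ((1 : G), (1 : ℤ))
  have hinj : Function.Injective fun x => (e.symm x : PX G) :=
    Subtype.val_injective.comp e.symm.injective
  have hC1 : Big C1 := (mk_image_eq hinj).trans (big_layer _)
  have hC2 : Big C2 := (mk_image_eq hinj).trans (big_layer _)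
  have h1C : C1 ⊆ C := by rintro _ ⟨x, _, rfl⟩; exact (e.symm x).2
  have h2C : C2 ⊆ C := by rintro _ ⟨x, _, rfl⟩; exact (e.symm x).2
  have h12 : ∀ x ∈ C1, x ∉ C2 := by
    rintro _ ⟨x, hx, rfl⟩ ⟨y, hy, hxy⟩
    have := hinj hxy
    subst this
    exact disjoint_layer (by simp) hx hy
  let q : PX G → PX G := fun x => if x ∈ B then π x else x
  have hqB : ∀ x ∈ B, q x = π x := fun x hx => by simp [q, hx]
  have hqC : ∀ x ∈ C1, q x = x := fun x hx => by
    have : x ∉ B := fun hb => h1C hx (Or.inl hb)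
    simp [q, this]
  have hq : Set.InjOn q (B ∪ C1) := by
    rintro x (hx | hx) y (hy | hy) hxy
    · rw [hqB x hx, hqB y hy] at hxy; exact π.injective hxy
    · rw [hqB x hx, hqC y hy] at hxy; exact (h1C hy (Or.inr ⟨x, hx, hxy⟩)).elim
    · rw [hqC x hx, hqB y hy] at hxy; exact (h1C hx (Or.inr ⟨y, hy, hxy.symm⟩)).elim
    · rw [hqC x hx, hqC y hy] at hxy; exact hxy
  have hA : Big (B ∪ C1)ᶜ := hC2.mono (by
    rintro x hx (hb | hc)
    · exact h2C hx (Or.inl hb)
    · exact h12 x hc hx)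
  have hA' : Big (q '' (B ∪ C1))ᶜ := hC2.mono (by
    rintro x hx ⟨y, hy | hy, rfl⟩
    · rw [hqB y hy] at hx; exact h2C hx (Or.inr ⟨y, hy, rfl⟩)
    · rw [hqC y hy] at hx; exact h12 y hy hx)
  obtain ⟨τ, hτ⟩ := exists_perm (B ∪ C1) q hq hA hA'
  have hτN : τ ∈ N := mem_of_fix hN hg hgN τ C1 hC1
    (hC2.mono fun x hx h1 => h12 x h1 hx)
    (fun x hx => (hτ x (Or.inr hx)).trans (hqC x hx))
  have hrest : τ⁻¹ * π ∈ N := mem_of_fix hN hg hgN _ B hB
    (hC.mono fun x hx hb => hx (Or.inl hb))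
    (fun x hx => by
      have h1 : τ x = π x := (hτ x (Or.inl hx)).trans (hqB x hx)
      simp [Equiv.Perm.mul_apply, ← h1])
  simpa using N.mul_mem hτN hrest

end Vale.Agent.P174
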