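import Vale.Agent.P174.NormalForm
import Vale.Agent.P174.Overgroup

/-!
The conjecture for all groups is equivalent to the assertion that no nontrivial coefficient
group is killed entirely.
-/

namespace Vale.Agent.P174

open Monoid Function

universe u v

variable {G : Type u} [Group G] {S : Type u} [Group S] {α : Type v}

/-- Apply a homomorphism to the coefficients. -/
def mapCoef (ψ : G →* S) (l : List (Letter G α)) : List (Letter S α) :=
  l.map (Sum.map ψ id)

lemma mapCoef_cons (ψ : G →* S) (a : Letter G α) (l : List (Letter G α)) :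
    mapCoef ψ (a :: l) = Sum.map ψ id a :: mapCoef ψ l := rfl

lemma ev_mapCoef {H : Type*} [Group H] (ψ : G →* S) (Φ : S →* H) (h : α → H)
    (l : List (Letter G α)) : ev Φ h (mapCoef ψ l) = ev (Φ.comp ψ) h l := by
  induction l with
  | nil => rfl
  | cons a l ih =>
    rw [mapCoef_cons, ev_cons, ev_cons, ih]
    congr 1
    rcases a with g | ⟨k, b⟩
    · rfl
    · cases b <;> rfl

lemma occ_mapCoef [DecidableEq α] (ψ : G →* S) (j : α) (l : List (Letter G α)) :
    occ j (mapCoef ψ l) = occ j l := by
  induction l with
  | nil => rfl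
  | cons a l ih =>
    rcases a with g | ⟨k, b⟩ <;> simp [mapCoef_cons, ih]

lemma rowL_mapCoef [DecidableEq α] (ψ : G →* S) (l : List (Letter G α)) :
    rowL (mapCoef ψ l) = rowL l := by
  induction l with
  | nil => simp [mapCoef]
  | cons a l ih =>
    rw [mapCoef_cons, rowL_cons, rowL_cons a l, ih]
    congr 1
    rcases a with g | ⟨k, b⟩
    · simp
    · simp [rowL_inr]

/-- The weakest form is equivalent to the conjecture for all groups. -/
theorem conjecture_iff_noKilling :
    (∀ (G : Type u) [Group G], Conjecture G) ↔ NoKilling.{u} := by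
  constructor
  · intro hc G _ hG n l _ hns
    obtain ⟨H, hH, φ, h, hinj, hsol⟩ := hc G n n _ hns
    refine ⟨H, hH, φ, h, ?_, hsol⟩
    rintro rfl
    obtain ⟨x, y, hxy⟩ := exists_pair_ne G
    exact hxy (hinj rfl)
  · intro hK G _
    refine (conjecture_iff G).mpr (fun n l hnf hns => ?_)
    have key : ∀ g : {g : G // g ≠ 1}, ∃ (H : Type u) (_ : Group H) (φ : G →* H)
        (h : Fin n → H), φ g.1 ≠ 1 ∧ ∀ i, ev φ h (l i) = 1 := by
      rintro ⟨g, hg⟩
      let ψ : G →* Equiv.Perm (PX G) := translate
      have hnt : Nontrivial (Equiv.Perm (PX G)) :=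
        ⟨⟨ψ g, ψ 1, fun h => hg (translate_injective h)⟩⟩
      let l' : Fin n → List (Letter (Equiv.Perm (PX G)) (Fin n)) := fun i => mapCoef ψ (l i)
      have hnf' : IsNormalForm l' := by
        refine ⟨fun i => ?_, fun x => ?_⟩
        · rcases hnf.1 i with ⟨c, a, he⟩ | ⟨a, b, he⟩ | ⟨a, b, c, he⟩
          · exact Or.inl ⟨ψ c, a, by simp [l', he, mapCoef]⟩
          · exact Or.inr (Or.inl ⟨a, b, by simp [l', he, mapCoef]⟩)
          · exact Or.inr (Or.inr ⟨a, b, c, by simp [l', he, mapCoef]⟩)
        · simpa only [l', occ_mapCoef] using hnf.2 x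
      have hns' : Nonsingular (fun i => word (l' i)) := by
        show LinearIndependent ℚ (fun i => rowL (l' i))
        simp only [l', rowL_mapCoef]
        exact hns
      obtain ⟨H, hH, Φ, h, hne, hsol⟩ := hK _ hnt n l' hnf' hns'
      refine ⟨H, hH, Φ.comp ψ, h, fun h1 => hne ?_, fun i => ?_⟩
      · have htop := eq_top_of_translate_mem (N := Φ.ker) inferInstance hg h1
        ext x
        have : x ∈ Φ.ker := htop ▸ Subgroup.mem_top x
        simpa using this
      · have := hsol i
        rw [lift_word] at this
        rw [← ev_mapCoef]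
        exact this
    choose H hH φ h hne hsol using key
    refine ⟨∀ g, H g, inferInstance, MonoidHom.pi φ, fun j g => h g j, ?_, fun i => ?_⟩
    · rw [injective_iff_map_eq_one]
      intro x hx
      by_contra hx1
      exact hne ⟨x, hx1⟩ (congrFun hx ⟨x, hx1⟩)
    · rw [lift_word]
      funext g
      have : ∀ L : List (Letter G (Fin n)),
          ev (MonoidHom.pi φ) (fun j g => h g j) L g = ev (φ g) (h g) L := by
        intro L
        induction L with
        | nil => rfl
        | cons a L ih =>
          rw [ev_cons, ev_cons, Pi.mul_apply, ih]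
          congr 1
          rcases a with c | ⟨k, b⟩
          · rfl
          · cases b <;> rfl
      rw [this, hsol]
      rfl

end Vale.Agent.P174
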