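import Vale.Agent.P174.Basic

/-!
Reduction of arbitrary nonsingular systems to square positive systems with at most three
letters in each equation and at most three occurrences of each unknown.
-/

namespace Vale.Agent.P174

open Monoid Function

set_option linter.unusedSectionVars false

universe u v w

variable {G : Type u} [Group G]

lemma toAdd_ev_one {α : Type v} [DecidableEq α] [Fintype α] (x : α → ℚ)
    (l : List (Letter G α)) :
    Multiplicative.toAdd (ev (1 : G →* Multiplicative ℚ) (fun j => Multiplicative.ofAdd (x j)) l) =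
      ∑ j, rowL l j * x j := by
  induction l with
  | nil => simp
  | cons a l ih =>
    rw [ev_cons, toAdd_mul, ih, rowL_cons a l]
    simp only [Pi.add_apply, add_mul, Finset.sum_add_distrib]
    congr 1
    rcases a with g | ⟨k, b⟩
    · simp [letterVal]
    · cases b <;> simp [letterVal, rowL_inr]

/-- If the homogeneous linear system has only the zero solution and it is square, the rows are
independent. -/
lemma linearIndependent_of_trivial {α : Type v} {ι : Type w} [Fintype α] [Fintype ι]
    (hcard : Fintype.card ι = Fintype.card α) (r : ι → α → ℚ)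
    (hker : ∀ x : α → ℚ, (∀ i, ∑ j, r i j * x j = 0) → x = 0) :
    LinearIndependent ℚ r := by
  classical
  let M : Matrix ι α ℚ := Matrix.of r
  have hT : Injective M.mulVecLin := by
    rw [injective_iff_map_eq_zero]
    intro x hx
    refine hker x (fun i => ?_)
    exact congrFun hx i
  have hdim : Module.finrank ℚ (α → ℚ) = Module.finrank ℚ (ι → ℚ) := by
    simp [hcard]
  have hsurj : Surjective M.mulVecLin :=
    (LinearMap.injective_iff_surjective_of_finrank_eq_finrank hdim).mp hT
  rw [Fintype.linearIndependent_iff]
  intro g hg i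
  obtain ⟨x, hx⟩ := hsurj (Pi.single i 1)
  have hxk : ∀ k, ∑ j, r k j * x j = (Pi.single i (1 : ℚ) : ι → ℚ) k := fun k => congrFun hx k
  calc g i = ∑ k, g k * ∑ j, r k j * x j := by
        simp [hxk, Pi.single_apply, mul_ite]
    _ = ∑ j, (∑ k, g k • r k) j * x j := by
        simp only [Finset.sum_apply, Pi.smul_apply, smul_eq_mul, Finset.mul_sum, Finset.sum_mul]
        rw [Finset.sum_comm]
        simp [mul_assoc]
    _ = 0 := by
      refine Finset.sum_eq_zero (fun j _ => ?_)
      rw [hg, Pi.zero_apply, zero_mul]

/-- In a square system with independent rows the homogeneous system has only the zero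
solution. -/
lemma trivial_of_linearIndependent {α : Type v} {ι : Type w} [Fintype α] [Fintype ι]
    (hcard : Fintype.card ι = Fintype.card α) (r : ι → α → ℚ) (hr : LinearIndependent ℚ r)
    (x : α → ℚ) (hx : ∀ i, ∑ j, r i j * x j = 0) : x = 0 := by
  classical
  let f : (α → ℚ) →ₗ[ℚ] ℚ :=
    { toFun := fun y => ∑ j, y j * x j
      map_add' := fun y z => by simp [add_mul, Finset.sum_add_distrib]
      map_smul' := fun c y => by simp [Finset.mul_sum, mul_assoc] }
  have hspan : Submodule.span ℚ (Set.range r) = ⊤ :=
    hr.span_eq_top_of_card_eq_finrank' (by simp [hcard])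
  have hf : f = 0 := LinearMap.ext_on_range hspan (fun i => hx i)
  funext j
  simpa [f, Pi.single_apply, ite_mul] using congrArg (fun g => g (Pi.single j 1)) hf

/-- Completion of a nonsingular system to a square one by equations of the form `x = 1`. -/
lemma exists_square {n : ℕ} : ∀ (d m : ℕ) (l : Fin m → List (Letter G (Fin n))),
    m + d = n → LinearIndependent ℚ (fun i => rowL (l i)) →
    ∃ L : Fin n → List (Letter G (Fin n)), LinearIndependent ℚ (fun i => rowL (L i)) ∧
      ∀ i, ∃ k, L k = l i := by
  intro d
  induction d with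
  | zero =>
    intro m l hm hli
    subst hm
    exact ⟨l, hli, fun i => ⟨i, rfl⟩⟩
  | succ d ih =>
    intro m l hm hli
    have hex : ∃ j : Fin n, (Pi.single j (1 : ℚ) : Fin n → ℚ) ∉
        Submodule.span ℚ (Set.range fun i => rowL (l i)) := by
      by_contra hall
      push Not at hall
      have htop : Submodule.span ℚ (Set.range fun i => rowL (l i)) = ⊤ := by
        rw [eq_top_iff, ← (Pi.basisFun ℚ (Fin n)).span_eq, Submodule.span_le]
        rintro _ ⟨j, rfl⟩
        simpa using hall j
      have h1 := finrank_span_eq_card hli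
      rw [htop, finrank_top] at h1
      simp at h1
      omega
    obtain ⟨j, hj⟩ := hex
    let l' : Fin (m + 1) → List (Letter G (Fin n)) := Fin.snoc l [Sum.inr (j, true)]
    have hrow : rowL ([Sum.inr (j, true)] : List (Letter G (Fin n))) = Pi.single j 1 := by
      funext c
      simp [rowL_inr, Pi.single_apply, eq_comm]
    have hli' : LinearIndependent ℚ (fun i => rowL (l' i)) := by
      have h := linearIndependent_finSnoc.mpr ⟨hli, hj⟩
      have he : (fun i => rowL (l' i)) = Fin.snoc (fun i => rowL (l i)) (Pi.single j 1) := by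
        funext i
        refine Fin.lastCases ?_ (fun k => ?_) i <;> simp [l', hrow]
      exact he ▸ h
    obtain ⟨L, hL, hmem⟩ := ih (m + 1) l' (by omega) hli'
    refine ⟨L, hL, fun i => ?_⟩
    obtain ⟨k, hk⟩ := hmem i.castSucc
    exact ⟨k, by simpa [l'] using hk⟩

section Construction

variable {n : ℕ} (L : Fin n → List (Letter G (Fin n)))

/-- Positions of letters. -/
abbrev Pos := Σ i : Fin n, Fin (L i).length

/-- Number of positions. -/
abbrev posCard : ℕ := Fintype.card (Pos L)

/-- Numbering of positions. -/
noncomputable def posNum (p : Pos L) : Fin (posCard L) := Fintype.equivFin (Pos L) p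

/-- The new unknowns: alternating copies, prefixes with their inverses, and letters. -/
abbrev NVar := (Fin n × Fin (2 * posCard L + 2)) ⊕
  (((Σ i : Fin n, Fin ((L i).length + 1)) × Bool) ⊕ Pos L)

/-- The new equations. -/
abbrev NEq := (Fin n × Fin (2 * posCard L + 1)) ⊕
  ((Σ i : Fin n, Fin ((L i).length + 1)) ⊕ (Pos L ⊕ (Pos L ⊕ (Fin n × Bool))))

variable {L}

/-- A copy of `x j` (even index) or of its inverse (odd index). -/
abbrev qv (j : Fin n) (t : Fin (2 * posCard L + 2)) : NVar L := Sum.inl (j, t)

/-- Prefix of an equation, or its inverse. -/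
abbrev uv (i : Fin n) (t : Fin ((L i).length + 1)) (b : Bool) : NVar L :=
  Sum.inr (Sum.inl (⟨i, t⟩, b))

/-- Value of a letter. -/
abbrev cv (p : Pos L) : NVar L := Sum.inr (Sum.inr p)

/-- The copy used at a position. -/
noncomputable def slot (p : Pos L) (b : Bool) : Fin (2 * posCard L + 2) :=
  if b then ⟨2 * (posNum L p : ℕ) + 1, by omega⟩ else ⟨2 * (posNum L p : ℕ), by omega⟩

/-- Defining equation of the value of a letter. -/
noncomputable def defEq (p : Pos L) : List (Letter G (NVar L)) :=
  match (L p.1)[(p.2 : ℕ)] with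
  | Sum.inl g => [Sum.inl g⁻¹, Sum.inr (cv p, true)]
  | Sum.inr (j, b) => [Sum.inr (cv p, true), Sum.inr (qv j (slot p b), true)]

variable (L)

/-- The new system. -/
noncomputable def newSys : NEq L → List (Letter G (NVar L))
  | Sum.inl (j, t) => [Sum.inr (qv j t.castSucc, true), Sum.inr (qv j t.succ, true)]
  | Sum.inr (Sum.inl ⟨i, t⟩) => [Sum.inr (uv i t true, true), Sum.inr (uv i t false, true)]
  | Sum.inr (Sum.inr (Sum.inl ⟨i, t⟩)) =>
      [Sum.inr (uv i t.castSucc true, true), Sum.inr (cv ⟨i, t⟩, true),
        Sum.inr (uv i t.succ false, true)]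
  | Sum.inr (Sum.inr (Sum.inr (Sum.inl p))) => defEq p
  | Sum.inr (Sum.inr (Sum.inr (Sum.inr (i, b)))) =>
      [Sum.inl 1, Sum.inr (uv i (if b then Fin.last _ else 0) true, true)]

lemma card_eq : Fintype.card (NEq L) = Fintype.card (NVar L) := by
  have hs : Fintype.card (Σ i : Fin n, Fin ((L i).length + 1)) = posCard L + n := by
    simp [posCard, Finset.sum_add_distrib]
  simp only [Fintype.card_sum, Fintype.card_prod, Fintype.card_fin, Fintype.card_bool, hs]
  ring

section Sol

variable {L} {H : Type*} [Group H] {φ : G →* H} {h : NVar L → H}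
  (hh : ∀ e, ev φ h (newSys L e) = 1)
include hh

/-- The value of a copy. -/
lemma qv_val (j : Fin n) (t : Fin (2 * posCard L + 2)) :
    h (qv j t) = if Even (t : ℕ) then h (qv j 0) else (h (qv j 0))⁻¹ := by
  induction t using Fin.induction with
  | zero => simp
  | succ t ih =>
    have h1 := hh (Sum.inl (j, t))
    simp only [newSys, ev_cons, ev_nil, letterVal, mul_one] at h1
    rw [eq_inv_of_mul_eq_one_right h1, ih]
    by_cases he : Even (t : ℕ) <;> simp [he, Nat.even_add_one]

/-- The value of a letter. -/
lemma cv_val (p : Pos L) :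
    h (cv p) = letterVal φ (fun j => h (qv j 0)) ((L p.1)[(p.2 : ℕ)]) := by
  have h1 := hh (Sum.inr (Sum.inr (Sum.inr (Sum.inl p))))
  simp only [newSys, defEq] at h1
  generalize (L p.1)[(p.2 : ℕ)] = a at h1 ⊢
  rcases a with g | ⟨j, b⟩
  · simp [letterVal] at h1
    simpa [letterVal] using (inv_mul_eq_one.mp h1).symm
  · simp only [ev_cons, ev_nil, letterVal, mul_one] at h1
    rw [eq_inv_of_mul_eq_one_left h1, qv_val hh]
    cases b <;> simp [slot, letterVal, Nat.even_add_one]

lemma uv_false (i : Fin n) (t : Fin ((L i).length + 1)) :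
    h (uv i t false) = (h (uv i t true))⁻¹ := by
  have h1 := hh (Sum.inr (Sum.inl ⟨i, t⟩))
  simp only [newSys, ev_cons, ev_nil, letterVal, mul_one] at h1
  exact eq_inv_of_mul_eq_one_right h1

/-- The value of a prefix. -/
lemma uv_val (i : Fin n) (t : Fin ((L i).length + 1)) :
    h (uv i t true) = ev φ (fun j => h (qv j 0)) ((L i).take t) := by
  induction t using Fin.induction with
  | zero =>
    have h1 := hh (Sum.inr (Sum.inr (Sum.inr (Sum.inr (i, false)))))
    simpa [newSys, letterVal] using h1
  | succ t ih =>
    have h1 := hh (Sum.inr (Sum.inr (Sum.inl ⟨i, t⟩)))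
    simp only [newSys, ev_cons, ev_nil, letterVal, mul_one, uv_false hh, cv_val hh] at h1
    rw [ih, ← mul_assoc, mul_inv_eq_one] at h1
    rw [← h1, Fin.val_succ, List.take_succ_eq_append_getElem t.isLt, ev_append]
    simp only [ev_cons, ev_nil, mul_one]
    rfl

/-- A solution of the new system gives one of the old system. -/
lemma sol_old (i : Fin n) : ev φ (fun j => h (qv j 0)) (L i) = 1 := by
  have h1 := hh (Sum.inr (Sum.inr (Sum.inr (Sum.inr (i, true)))))
  simp [newSys, letterVal, uv_val hh] at h1
  simpa using h1

end Sol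

lemma newSys_rows (hL : LinearIndependent ℚ (fun i => rowL (L i))) :
    LinearIndependent ℚ (fun e => rowL (newSys L e)) := by
  refine linearIndependent_of_trivial (card_eq L) _ (fun x hx => ?_)
  let h : NVar L → Multiplicative ℚ := fun v => Multiplicative.ofAdd (x v)
  have hh : ∀ e, ev (1 : G →* Multiplicative ℚ) h (newSys L e) = 1 := by
    intro e
    apply Multiplicative.toAdd.injective
    rw [toAdd_ev_one, hx e, toAdd_one]
  have hx0 : (fun j => x (qv j 0)) = 0 := by
    refine trivial_of_linearIndependent rfl _ hL _ (fun i => ?_)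
    rw [← toAdd_ev_one, sol_old hh i, toAdd_one]
  have hone : (fun j => h (qv j 0)) = 1 := by
    funext j
    simp [h, show x (qv j 0) = 0 from congrFun hx0 j]
  have hev : ∀ l : List (Letter G (Fin n)),
      ev (1 : G →* Multiplicative ℚ) (fun j => h (qv j 0)) l = 1 := by
    intro l
    induction l with
    | nil => rfl
    | cons a l ih =>
      rw [ev_cons, ih, mul_one, hone]
      rcases a with g | ⟨k, b⟩
      · rfl
      · cases b <;> simp [letterVal]
  have hall : ∀ v, h v = 1 := by
    rintro (⟨j, t⟩ | ⟨⟨i, t⟩, b⟩ | p)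
    · rw [show Sum.inl (j, t) = qv j t from rfl, qv_val hh, congrFun hone j]
      simp
    · cases b
      · rw [show h (Sum.inr (Sum.inl (⟨i, t⟩, false))) = h (uv i t false) from rfl, uv_false hh,
          uv_val hh, hev, inv_one]
      · rw [show h (Sum.inr (Sum.inl (⟨i, t⟩, true))) = h (uv i t true) from rfl, uv_val hh, hev]
    · rw [show Sum.inr (Sum.inr p) = cv p from rfl, cv_val hh]
      have := hev [(L p.1)[(p.2 : ℕ)]]
      simpa using this
  funext v
  simpa [h] using hall v

lemma sum_ite_le_one {β : Type*} [Fintype β] (P : β → Prop) [DecidablePred P]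
    (hP : ∀ a b, P a → P b → a = b) : ∑ a, (if P a then 1 else 0 : ℕ) ≤ 1 := by
  rw [Finset.sum_boole, Nat.cast_id, Finset.card_le_one]
  simp only [Finset.mem_filter, Finset.mem_univ, true_and]
  exact fun a ha b hb => hP a b ha hb

lemma slot_inj {p q : Pos L} {b c : Bool} (h : slot p b = slot q c) : p = q := by
  apply (Fintype.equivFin (Pos L)).injective
  apply Fin.ext
  show (posNum L p : ℕ) = posNum L q
  have h' := congrArg Fin.val h
  cases b <;> cases c <;> simp [slot] at h' <;> omega

lemma newSys_normal : IsNormalForm (newSys L) := by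
  classical
  refine ⟨?_, ?_⟩
  · rintro (⟨j, t⟩ | ⟨i, t⟩ | ⟨i, t⟩ | p | ⟨i, b⟩)
    · exact Or.inr (Or.inl ⟨_, _, rfl⟩)
    · exact Or.inr (Or.inl ⟨_, _, rfl⟩)
    · exact Or.inr (Or.inr ⟨_, _, _, rfl⟩)
    · simp only [newSys, defEq]
      split
      · exact Or.inl ⟨_, _, rfl⟩
      · exact Or.inr (Or.inl ⟨_, _, rfl⟩)
    · exact Or.inl ⟨_, _, rfl⟩
  · intro v
    simp only [Fintype.sum_sum_type]
    rcases v with ⟨j, t⟩ | ⟨⟨i, t⟩, b⟩ | p
    · have hc : ∑ e : Fin n × Fin (2 * posCard L + 1), occ (qv j t) (newSys L (Sum.inl e)) ≤ 2 := by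
        refine le_trans (Finset.sum_le_sum (g := fun e => (if (e.1, e.2.castSucc) = (j, t) then 1
          else 0) + if (e.1, e.2.succ) = (j, t) then 1 else 0) (fun e _ => ?_)) ?_
        · obtain ⟨a, s⟩ := e
          simp [newSys]
        · rw [Finset.sum_add_distrib]
          refine add_le_add (sum_ite_le_one _ ?_) (sum_ite_le_one _ ?_) <;>
          · rintro ⟨a, s⟩ ⟨a', s'⟩ h1 h2
            simp only [Prod.mk.injEq] at h1 h2 ⊢
            refine ⟨h1.1.trans h2.1.symm, ?_⟩
            have := h1.2.trans h2.2.symm
            simpa using this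
      have hd : ∑ p : Pos L, occ (qv j t)
          (newSys L (Sum.inr (Sum.inr (Sum.inr (Sum.inl p))))) ≤ 1 := by
        refine le_trans (Finset.sum_le_sum (g := fun p => if slot p false = t ∨ slot p true = t
          then 1 else 0) (fun p _ => ?_)) (sum_ite_le_one _ ?_)
        · simp only [newSys, defEq]
          split
          · simp
          · next a b _ =>
            simp only [occ_nil, occ_inr_cons]
            cases b <;> simp <;> split_ifs <;> simp_all
        · rintro p q (h1 | h1) (h2 | h2) <;> exact slot_inj L (h1.trans h2.symm)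
      have h0 : ∀ (e : (Σ i : Fin n, Fin ((L i).length + 1))),
          occ (qv j t) (newSys L (Sum.inr (Sum.inl e))) = 0 := by
        rintro ⟨i, s⟩; simp [newSys]
      have h0' : ∀ (e : Pos L),
          occ (qv j t) (newSys L (Sum.inr (Sum.inr (Sum.inl e)))) = 0 := by
        rintro ⟨i, s⟩; simp [newSys]
      have h0'' : ∀ (e : Fin n × Bool),
          occ (qv j t) (newSys L (Sum.inr (Sum.inr (Sum.inr (Sum.inr e))))) = 0 := by
        rintro ⟨i, s⟩; simp [newSys]
      show _ + _ ≤ 3
      simp only [qv, uv, cv] at *
      simp only [h0, h0', h0'', Finset.sum_const_zero]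
      omega
    · have h0 : ∀ e : Fin n × Fin (2 * posCard L + 1),
          occ (uv i t b) (newSys L (Sum.inl e)) = 0 := by
        rintro ⟨a, s⟩; simp [newSys]
      have hpair : ∑ e : (Σ i : Fin n, Fin ((L i).length + 1)),
          occ (uv i t b) (newSys L (Sum.inr (Sum.inl e))) ≤ 1 := by
        refine le_trans (Finset.sum_le_sum (g := fun e => if e = ⟨i, t⟩ then 1 else 0)
          (fun e _ => ?_)) (sum_ite_le_one _ (fun a c ha hc => ha.trans hc.symm))
        obtain ⟨a, s⟩ := e
        cases b <;> simp [newSys]
      have hdef : ∀ p : Pos L,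
          occ (uv i t b) (newSys L (Sum.inr (Sum.inr (Sum.inr (Sum.inl p))))) = 0 := by
        intro p
        simp only [newSys, defEq]
        split <;> simp
      have hstep : ∑ e : Pos L, occ (uv i t b) (newSys L (Sum.inr (Sum.inr (Sum.inl e)))) ≤
          if b = true ∧ t = Fin.last _ then 0 else 1 := by
        cases b
        · simp only [Bool.false_eq_true, false_and, if_false]
          refine le_trans (Finset.sum_le_sum (g := fun e =>
            if (⟨e.1, e.2.succ⟩ : Σ i : Fin n, Fin ((L i).length + 1)) = ⟨i, t⟩ then 1 else 0)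
            (fun e _ => ?_)) (sum_ite_le_one _ ?_)
          · obtain ⟨a, s⟩ := e
            simp [newSys]
          · rintro ⟨a, s⟩ ⟨a', s'⟩ h1 h2
            have h3 := h1.trans h2.symm
            simp only [Sigma.mk.injEq] at h3
            obtain ⟨rfl, h4⟩ := h3
            simp at h4
            rw [h4]
        · by_cases ht : t = Fin.last _
          · simp only [ht, and_self, if_true, nonpos_iff_eq_zero]
            refine Finset.sum_eq_zero (fun e _ => ?_)
            obtain ⟨a, s⟩ := e
            simp [newSys, Sigma.mk.injEq]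
            rintro rfl
            simpa using s.castSucc_lt_last.ne
          · simp only [ht, and_false, if_false]
            refine le_trans (Finset.sum_le_sum (g := fun e =>
              if (⟨e.1, e.2.castSucc⟩ : Σ i : Fin n, Fin ((L i).length + 1)) = ⟨i, t⟩ then 1
              else 0) (fun e _ => ?_)) (sum_ite_le_one _ ?_)
            · obtain ⟨a, s⟩ := e
              simp [newSys]
            · rintro ⟨a, s⟩ ⟨a', s'⟩ h1 h2
              have h3 := h1.trans h2.symm
              simp only [Sigma.mk.injEq] at h3
              obtain ⟨rfl, h4⟩ := h3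
              simp at h4
              rw [h4]
      have hbd : ∑ e : Fin n × Bool,
          occ (uv i t b) (newSys L (Sum.inr (Sum.inr (Sum.inr (Sum.inr e))))) ≤
          if b = true ∧ t = Fin.last _ then 2 else 1 := by
        rw [Fintype.sum_prod_type]
        rw [Finset.sum_eq_single i]
        · simp only [Fintype.sum_bool, newSys]
          cases b
          · simp
          · by_cases ht : t = Fin.last _
            · subst ht
              simp
              split_ifs <;> omega
            · simp [ht, Ne.symm ht]
              split_ifs <;> omega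
        · intro a _ ha
          simp [newSys, ha]
        · simp
      show _ + _ ≤ 3
      simp only [qv, uv, cv] at *
      simp only [h0, hdef, Finset.sum_const_zero]
      split_ifs at hstep hbd <;> omega
    · have h0 : ∀ e : Fin n × Fin (2 * posCard L + 1),
          occ (cv p) (newSys L (Sum.inl e)) = 0 := by
        rintro ⟨a, s⟩; simp [newSys]
      have h0' : ∀ (e : (Σ i : Fin n, Fin ((L i).length + 1))),
          occ (cv p) (newSys L (Sum.inr (Sum.inl e))) = 0 := by
        rintro ⟨a, s⟩; simp [newSys]
      have h0'' : ∀ (e : Fin n × Bool),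
          occ (cv p) (newSys L (Sum.inr (Sum.inr (Sum.inr (Sum.inr e))))) = 0 := by
        rintro ⟨a, s⟩; simp [newSys]
      have hs : ∑ e : Pos L, occ (cv p) (newSys L (Sum.inr (Sum.inr (Sum.inl e)))) ≤ 1 := by
        refine le_trans (Finset.sum_le_sum (g := fun e => if e = p then 1 else 0)
          (fun e _ => ?_)) (sum_ite_le_one _ (fun a c ha hc => ha.trans hc.symm))
        obtain ⟨a, s⟩ := e
        simp [newSys]
      have hd : ∑ e : Pos L,
          occ (cv p) (newSys L (Sum.inr (Sum.inr (Sum.inr (Sum.inl e))))) ≤ 1 := by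
        refine le_trans (Finset.sum_le_sum (g := fun e => if e = p then 1 else 0)
          (fun e _ => ?_)) (sum_ite_le_one _ (fun a c ha hc => ha.trans hc.symm))
        simp only [newSys, defEq]
        split <;> simp
      show _ + _ ≤ 3
      simp only [qv, uv, cv] at *
      simp only [h0, h0', h0'', Finset.sum_const_zero]
      omega

end Construction

/-- Renaming unknowns. -/
def relabel {α : Type v} {β : Type w} (f : α → β) (l : List (Letter G α)) : List (Letter G β) :=
  l.map (Sum.map id (Prod.map f id))

lemma ev_relabel {α : Type v} {β : Type w} {H : Type*} [Group H] (φ : G →* H) (f : α → β)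
    (h : β → H) (l : List (Letter G α)) : ev φ h (relabel f l) = ev φ (h ∘ f) l := by
  induction l with
  | nil => rfl
  | cons a l ih =>
    rw [show relabel f (a :: l) = Sum.map id (Prod.map f id) a :: relabel f l from rfl, ev_cons,
      ev_cons, ih]
    congr 1
    rcases a with g | ⟨k, b⟩
    · rfl
    · cases b <;> rfl

lemma occ_relabel {α : Type v} {β : Type w} [DecidableEq α] [DecidableEq β] (f : α ≃ β)
    (x : β) (l : List (Letter G α)) : occ x (relabel f l) = occ (f.symm x) l := by
  induction l with
  | nil => rfl
  | cons a l ih =>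
    rw [show relabel f (a :: l) = Sum.map id (Prod.map f id) a :: relabel f l from rfl, occ_cons,
      occ_cons (f.symm x), ih]
    congr 1
    rcases a with g | ⟨k, b⟩
    · rfl
    · simp [Equiv.eq_symm_apply]

lemma rowL_relabel {α : Type v} {β : Type w} [DecidableEq α] [DecidableEq β] (f : α ≃ β)
    (l : List (Letter G α)) :
    rowL (relabel f l) = LinearEquiv.funCongrLeft ℚ ℚ f.symm (rowL l) := by
  funext x
  show rowL (relabel f l) x = rowL l (f.symm x)
  induction l with
  | nil => simp [relabel]
  | cons a l ih =>
    rw [show relabel f (a :: l) = Sum.map id (Prod.map f id) a :: relabel f l from rfl, rowL_cons,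
      rowL_cons a l]
    simp only [Pi.add_apply, ih]
    congr 1
    rcases a with g | ⟨k, b⟩
    · simp
    · simp [rowL_inr, Equiv.eq_symm_apply]

/-- The conjecture for a group is equivalent to its normal form. -/
theorem conjecture_iff (G : Type u) [Group G] : Conjecture G ↔ NormalFormConjecture G := by
  refine ⟨fun hc n l _ hns => hc n n _ hns, fun hN m n w hw => ?_⟩
  classical
  choose l hl using fun i => exists_word (w i)
  have hli : LinearIndependent ℚ (fun i => rowL (l i)) := by
    have hw' : LinearIndependent ℚ (fun i => row (w i)) := hw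
    simpa only [rowL, hl] using hw'
  have hmn : m ≤ n := by simpa using hli.fintype_card_le_finrank
  obtain ⟨L, hL, hmem⟩ := exists_square (n - m) m l (by omega) hli
  let eV : NVar L ≃ Fin (Fintype.card (NVar L)) := Fintype.equivFin _
  let eE : Fin (Fintype.card (NVar L)) ≃ NEq L :=
    (Fintype.equivFinOfCardEq (card_eq L)).symm
  let l' : Fin (Fintype.card (NVar L)) → List (Letter G (Fin (Fintype.card (NVar L)))) :=
    fun i => relabel eV (newSys L (eE i))
  have hnf : IsNormalForm l' := by
    obtain ⟨h1, h2⟩ := newSys_normal L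
    refine ⟨fun i => ?_, fun x => ?_⟩
    · rcases h1 (eE i) with ⟨g, a, he⟩ | ⟨a, b, he⟩ | ⟨a, b, c, he⟩
      · exact Or.inl ⟨g, eV a, by simp [l', he, relabel]⟩
      · exact Or.inr (Or.inl ⟨eV a, eV b, by simp [l', he, relabel]⟩)
      · exact Or.inr (Or.inr ⟨eV a, eV b, eV c, by simp [l', he, relabel]⟩)
    · simp only [l', occ_relabel]
      rw [eE.sum_comp (fun e => occ (eV.symm x) (newSys L e))]
      exact h2 (eV.symm x)
  have hns : Nonsingular (fun i => word (l' i)) := by
    show LinearIndependent ℚ (fun i => rowL (l' i))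
    simp only [l', rowL_relabel]
    exact ((newSys_rows L hL).comp eE eE.injective).map' _ (LinearEquiv.ker _)
  obtain ⟨H, hH, φ, h, hinj, hsol⟩ := hN _ l' hnf hns
  have hsol' : ∀ e, ev φ (h ∘ eV) (newSys L e) = 1 := by
    intro e
    rw [← ev_relabel]
    have := hsol (eE.symm e)
    rw [lift_word] at this
    simpa [l'] using this
  refine ⟨H, hH, φ, fun j => (h ∘ eV) (qv j 0), hinj, fun i => ?_⟩
  rw [← hl i, lift_word]
  obtain ⟨k, hk⟩ := hmem i
  rw [← hk]
  exact sol_old hsol' k

end Vale.Agent.P174
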